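import Mathlib

namespace Vale.Agent.Lib.P315

/-- One unit-cost edit operation on a string: the insertion, the deletion or the
substitution of a single symbol. -/
inductive EditStep {A : Type} : List A → List A → Prop
  | ins (l₁ l₂ : List A) (a : A) : EditStep (l₁ ++ l₂) (l₁ ++ a :: l₂)
  | del (l₁ l₂ : List A) (a : A) : EditStep (l₁ ++ a :: l₂) (l₁ ++ l₂)
  | sub (l₁ l₂ : List A) (a b : A) : EditStep (l₁ ++ a :: l₂) (l₁ ++ b :: l₂)

/-- `EditPath k x y`: the string `y` is obtained from `x` by exactly `k` edit operations. -/
inductive EditPath {A : Type} : ℕ → List A → List A → Prop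
  | refl (x : List A) : EditPath 0 x x
  | step {k : ℕ} {x y z : List A} : EditPath k x y → EditStep y z → EditPath (k + 1) x z

/-- The unit-cost edit distance: the least number of single-symbol insertions, deletions
and substitutions that transform `x` into `y`. -/
noncomputable def editDist {A : Type} (x y : List A) : ℕ := sInf {k | EditPath k x y}

/-- A deterministic comparison algorithm for two input strings of length `n`: a decision
tree. A leaf `out d` outputs the number `d`. An inner node `cmp p q t₁ t₂` tests two symbol
occurrences for equality (`Sum.inl i` is position `i` of the first string, `Sum.inr j` is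
position `j` of the second string; any two of the `2 n` positions may be compared) and
continues with `t₁` if the two symbols are equal and with `t₂` otherwise. -/
inductive CmpTree (n : ℕ) : Type
  | out (d : ℝ) : CmpTree n
  | cmp (p q : Fin n ⊕ Fin n) (t₁ t₂ : CmpTree n) : CmpTree n

namespace CmpTree

variable {n : ℕ} {A : Type} [DecidableEq A]

/-- The output of the comparison algorithm on the input strings `x`, `y`. -/
def run (x y : Fin n → A) : CmpTree n → ℝ
  | out d => d
  | cmp p q t₁ t₂ => if Sum.elim x y p = Sum.elim x y q then run x y t₁ else run x y t₂

/-- The number of symbol comparisons the algorithm makes on the input strings `x`, `y`. -/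
def cost (x y : Fin n → A) : CmpTree n → ℕ
  | out _ => 0
  | cmp p q t₁ t₂ =>
      (if Sum.elim x y p = Sum.elim x y q then cost x y t₁ else cost x y t₂) + 1

end CmpTree

end Vale.Agent.Lib.P315
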