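import Vale.Agent.Lib.P315.Defs

namespace Vale.Agent.Lib.P315

variable {A : Type}

theorem EditStep.cons (a : A) {u v : List A} (h : EditStep u v) : EditStep (a :: u) (a :: v) := by
  cases h with
  | ins l₁ l₂ b => exact EditStep.ins (a :: l₁) l₂ b
  | del l₁ l₂ b => exact EditStep.del (a :: l₁) l₂ b
  | sub l₁ l₂ b c => exact EditStep.sub (a :: l₁) l₂ b c

theorem EditPath.cons (a : A) {k : ℕ} {u v : List A} (h : EditPath k u v) :
    EditPath k (a :: u) (a :: v) := by
  induction h with
  | refl x => exact EditPath.refl _
  | step _ hs ih => exact EditPath.step ih (hs.cons a)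

theorem EditPath.trans {k l : ℕ} {u v w : List A} (h₁ : EditPath k u v) (h₂ : EditPath l v w) :
    EditPath (k + l) u w := by
  induction h₂ with
  | refl x => simpa using h₁
  | step _ hs ih => exact EditPath.step (ih h₁) hs

theorem EditPath.single {u v : List A} (h : EditStep u v) : EditPath 1 u v :=
  EditPath.step (EditPath.refl u) h

theorem EditPath.head {k : ℕ} {u v w : List A} (h : EditStep u v) (h₂ : EditPath k v w) :
    EditPath (k + 1) u w := by
  have := (EditPath.single h).trans h₂
  rwa [Nat.add_comm] at this

theorem editPath_del_of_sublist {s u : List A} (h : s.Sublist u) :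
    EditPath (u.length - s.length) u s := by
  induction h with
  | slnil => exact EditPath.refl _
  | @cons l₁ l₂ a h ih =>
    have hlen := h.length_le
    have h1 : EditStep (a :: l₂) l₂ := EditStep.del [] l₂ a
    have h2 := EditPath.head h1 ih
    have e : (a :: l₂).length - l₁.length = l₂.length - l₁.length + 1 := by
      simp only [List.length_cons]; omega
    rw [e]; exact h2
  | @cons_cons l₁ l₂ a h ih =>
    have e : (a :: l₂).length - (a :: l₁).length = l₂.length - l₁.length := by
      simp only [List.length_cons]; omega
    rw [e]; exact ih.cons a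

theorem editPath_ins_of_sublist {s v : List A} (h : s.Sublist v) :
    EditPath (v.length - s.length) s v := by
  induction h with
  | slnil => exact EditPath.refl _
  | @cons l₁ l₂ a h ih =>
    have hlen := h.length_le
    have h1 : EditStep l₂ (a :: l₂) := EditStep.ins [] l₂ a
    have h2 := EditPath.step ih h1
    have e : (a :: l₂).length - l₁.length = l₂.length - l₁.length + 1 := by
      simp only [List.length_cons]; omega
    rw [e]; exact h2
  | @cons_cons l₁ l₂ a h ih =>
    have e : (a :: l₂).length - (a :: l₁).length = l₂.length - l₁.length := by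
      simp only [List.length_cons]; omega
    rw [e]; exact ih.cons a

theorem editPath_of_common_sublist {s u v : List A} (hu : s.Sublist u) (hv : s.Sublist v) :
    EditPath ((u.length - s.length) + (v.length - s.length)) u v :=
  (editPath_del_of_sublist hu).trans (editPath_ins_of_sublist hv)

theorem editDist_le_of_editPath {k : ℕ} {u v : List A} (h : EditPath k u v) : editDist u v ≤ k :=
  Nat.sInf_le h

theorem editDist_le_of_common_sublist {s u v : List A} (hu : s.Sublist u) (hv : s.Sublist v) :
    editDist u v ≤ (u.length - s.length) + (v.length - s.length) :=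
  editDist_le_of_editPath (editPath_of_common_sublist hu hv)

theorem editPath_nonempty (u v : List A) : {k | EditPath k u v}.Nonempty :=
  ⟨_, editPath_of_common_sublist (List.nil_sublist u) (List.nil_sublist v)⟩

theorem EditStep.countP_le (P : A → Bool) {u v : List A} (h : EditStep u v) :
    u.countP P ≤ v.countP P + 1 := by
  cases h with
  | ins l₁ l₂ b => simp only [List.countP_append, List.countP_cons]; omega
  | del l₁ l₂ b =>
    simp only [List.countP_append, List.countP_cons]
    split <;> omega
  | sub l₁ l₂ b c =>
    simp only [List.countP_append, List.countP_cons]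
    split <;> split <;> omega

theorem EditPath.countP_le (P : A → Bool) {k : ℕ} {u v : List A} (h : EditPath k u v) :
    u.countP P ≤ v.countP P + k := by
  induction h with
  | refl x => simp
  | step _ hs ih => have := hs.countP_le P; omega

theorem le_editDist_of_countP (P : A → Bool) (u v : List A) :
    u.countP P ≤ v.countP P + editDist u v := by
  have hmem : editDist u v ∈ {k | EditPath k u v} := Nat.sInf_mem (editPath_nonempty u v)
  exact EditPath.countP_le P hmem

theorem ofFn_comp_sublist {L n : ℕ} (a : Fin L → Fin n) (ha : StrictMono a) (x : Fin n → A) :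
    (List.ofFn (fun t => x (a t))).Sublist (List.ofFn x) := by
  rw [List.sublist_iff_exists_fin_orderEmbedding_get_eq]
  refine ⟨(Fin.castOrderIso (by simp)).toOrderEmbedding.trans
    ((OrderEmbedding.ofStrictMono a ha).trans (Fin.castOrderIso (by simp)).toOrderEmbedding), ?_⟩
  intro ix
  simp
  rfl

theorem editDist_ofFn_le_of_chain {L n : ℕ} (a b : Fin L → Fin n) (ha : StrictMono a)
    (hb : StrictMono b) (x y : Fin n → A) (h : ∀ t, x (a t) = y (b t)) :
    editDist (List.ofFn x) (List.ofFn y) ≤ (n - L) + (n - L) := by
  have h1 := ofFn_comp_sublist a ha x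
  have h2 := ofFn_comp_sublist b hb y
  have e : (fun t => x (a t)) = (fun t => y (b t)) := funext h
  rw [e] at h1
  have := editDist_le_of_common_sublist h1 h2
  simpa using this

end Vale.Agent.Lib.P315
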