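import Vale.Agent.Lib.P315.TreeLemmas

namespace Vale.Agent.Lib.P315

theorem count_offset {n m : ℕ} (Q : Finset (Fin n × Fin n))
    (hQ : ∀ (L : ℕ) (a b : Fin L → Fin n), StrictMono a → StrictMono b →
      (∀ t, (a t, b t) ∉ Q) → L + m ≤ n) (c : ℕ) :
    m - c ≤ (Q.filter (fun p => (p.2 : ℕ) = p.1 + c)).card := by
  classical
  obtain ⟨A, hA⟩ : ∃ A : Finset (Fin n),
      ∀ i, i ∈ A ↔ ∃ j : Fin n, (j : ℕ) = i + c ∧ (i, j) ∉ Q :=
    ⟨Finset.univ.filter (fun i : Fin n => ∃ j : Fin n, (j : ℕ) = i + c ∧ (i, j) ∉ Q), by simp⟩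
  have hmem : ∀ t : Fin A.card, ∃ j : Fin n,
      (j : ℕ) = (A.orderEmbOfFin rfl t : Fin n) + c ∧ ((A.orderEmbOfFin rfl t, j) ∉ Q) := by
    intro t
    exact (hA _).mp (A.orderEmbOfFin_mem rfl t)
  choose b hb1 hb2 using hmem
  have hchain := hQ A.card (A.orderEmbOfFin rfl) b (A.orderEmbOfFin rfl).strictMono (by
    intro s t hst
    have := (A.orderEmbOfFin rfl).strictMono hst
    rw [Fin.lt_def] at this ⊢
    rw [hb1 s, hb1 t]; omega) hb2
  obtain ⟨E, hE⟩ : ∃ E : Finset (Fin n), ∀ i, i ∈ E ↔ (i : ℕ) + c < n :=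
    ⟨Finset.univ.filter (fun i : Fin n => (i : ℕ) + c < n), by simp⟩
  have hEcard : n - c ≤ E.card := by
    have : (Finset.univ : Finset (Fin (n - c))).card ≤ E.card := by
      apply Finset.card_le_card_of_injOn (fun k => Fin.castLE (Nat.sub_le n c) k)
      · intro k _
        have := k.isLt
        simp only [Finset.mem_coe, hE, Fin.val_castLE]
        omega
      · intro k _ k' _ h
        exact Fin.castLE_injective _ h
    simpa using this
  have hsub : E ⊆ A ∪ (Q.filter (fun p => (p.2 : ℕ) = p.1 + c)).image Prod.fst := by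
    intro i hi
    rw [hE] at hi
    by_cases h : (i, (⟨i + c, hi⟩ : Fin n)) ∈ Q
    · apply Finset.mem_union_right
      rw [Finset.mem_image]
      exact ⟨(i, ⟨i + c, hi⟩), by simp [h], rfl⟩
    · apply Finset.mem_union_left
      rw [hA]
      exact ⟨⟨i + c, hi⟩, rfl, h⟩
  have h1 := Finset.card_le_card hsub
  have h2 := Finset.card_union_le A ((Q.filter (fun p => (p.2 : ℕ) = p.1 + c)).image Prod.fst)
  have h3 := Finset.card_image_le (s := Q.filter (fun p => (p.2 : ℕ) = p.1 + c)) (f := Prod.fst)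
  omega

theorem count_upper {n m : ℕ} (Q : Finset (Fin n × Fin n))
    (hQ : ∀ (L : ℕ) (a b : Fin L → Fin n), StrictMono a → StrictMono b →
      (∀ t, (a t, b t) ∉ Q) → L + m ≤ n) (c₀ : ℕ) :
    ∑ c ∈ Finset.Ico c₀ m, (m - c) ≤ (Q.filter (fun p => (p.1 : ℕ) + c₀ ≤ p.2)).card := by
  classical
  calc ∑ c ∈ Finset.Ico c₀ m, (m - c)
      ≤ ∑ c ∈ Finset.Ico c₀ m, (Q.filter (fun p => (p.2 : ℕ) = p.1 + c)).card :=
        Finset.sum_le_sum (fun c _ => count_offset Q hQ c)
    _ = ((Finset.Ico c₀ m).biUnion (fun c => Q.filter (fun p => (p.2 : ℕ) = p.1 + c))).card := by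
        rw [Finset.card_biUnion]
        intro c _ c' _ hcc'
        rw [Function.onFun, Finset.disjoint_left]
        intro p hp hp'
        simp only [Finset.mem_filter] at hp hp'
        omega
    _ ≤ _ := by
        apply Finset.card_le_card
        intro p hp
        simp only [Finset.mem_biUnion, Finset.mem_Ico, Finset.mem_filter] at hp ⊢
        obtain ⟨c, ⟨hc1, hc2⟩, hpQ, hpc⟩ := hp
        exact ⟨hpQ, by omega⟩

theorem sum_two_triangles (m : ℕ) :
    (∑ c ∈ Finset.Ico 0 m, (m - c)) + (∑ c ∈ Finset.Ico 1 m, (m - c)) = m * m := by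
  induction m with
  | zero => simp
  | succ m ih =>
    have h1 : ∑ c ∈ Finset.Ico 0 (m + 1), (m + 1 - c) = (∑ c ∈ Finset.Ico 0 m, (m - c)) + m + 1 := by
      rw [Finset.sum_Ico_succ_top (Nat.zero_le m)]
      have : ∑ c ∈ Finset.Ico 0 m, (m + 1 - c) = ∑ c ∈ Finset.Ico 0 m, ((m - c) + 1) := by
        apply Finset.sum_congr rfl
        intro c hc
        rw [Finset.mem_Ico] at hc
        omega
      rw [this, Finset.sum_add_distrib]
      simp
    have h2 : ∑ c ∈ Finset.Ico 1 (m + 1), (m + 1 - c) = (∑ c ∈ Finset.Ico 1 m, (m - c)) + m := by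
      rcases Nat.eq_zero_or_pos m with hm | hm
      · subst hm; simp
      · rw [Finset.sum_Ico_succ_top hm]
        have : ∑ c ∈ Finset.Ico 1 m, (m + 1 - c) = ∑ c ∈ Finset.Ico 1 m, ((m - c) + 1) := by
          apply Finset.sum_congr rfl
          intro c hc
          rw [Finset.mem_Ico] at hc
          omega
        rw [this, Finset.sum_add_distrib]
        simp
        omega
    rw [h1, h2]
    nlinarith [ih]

theorem count_main {n m : ℕ} (Q : Finset (Fin n × Fin n))
    (hQ : ∀ (L : ℕ) (a b : Fin L → Fin n), StrictMono a → StrictMono b →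
      (∀ t, (a t, b t) ∉ Q) → L + m ≤ n) :
    m * m ≤ Q.card := by
  classical
  have hup := count_upper Q hQ 0
  have hQ' : ∀ (L : ℕ) (a b : Fin L → Fin n), StrictMono a → StrictMono b →
      (∀ t, (a t, b t) ∉ Q.image Prod.swap) → L + m ≤ n := by
    intro L a b ha hb h
    apply hQ L b a hb ha
    intro t hmem
    apply h t
    rw [Finset.mem_image]
    exact ⟨(b t, a t), hmem, rfl⟩
  have hlow := count_upper (Q.image Prod.swap) hQ' 1
  have hswap : ((Q.image Prod.swap).filter (fun p => (p.1 : ℕ) + 1 ≤ p.2)).card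
      = (Q.filter (fun p => ¬ ((p.1 : ℕ) + 0 ≤ p.2))).card := by
    rw [Finset.filter_image, Finset.card_image_of_injective _ Prod.swap_injective]
    congr 1
    apply Finset.filter_congr
    intro p _
    simp only [Prod.fst_swap, Prod.snd_swap]
    omega
  have hsplit := Finset.card_filter_add_card_filter_not (s := Q)
    (fun p : Fin n × Fin n => (p.1 : ℕ) + 0 ≤ p.2)
  have hsum := sum_two_triangles m
  rw [hswap] at hlow
  omega

theorem main_bound {n : ℕ} (α : ℝ) (T : CmpTree n)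
    (hT : ∀ x y : Fin n → Fin (2 * n),
      (editDist (List.ofFn x) (List.ofFn y) : ℝ) ≤ T.run x y ∧
        T.run x y ≤ α * editDist (List.ofFn x) (List.ofFn y)) :
    (n : ℝ) ^ 2 ≤ 4 * α ^ 2 * T.cost (xZero n) (yZero n) := by
  rcases Nat.eq_zero_or_pos n with hn | hn
  · subst hn
    simp only [Nat.cast_zero, ne_eq, OfNat.ofNat_ne_zero, not_false_eq_true, zero_pow]
    positivity
  have hαpos : 0 < α := by
    have h0 : (n : ℝ) ≤ editDist (List.ofFn (xZero n)) (List.ofFn (yZero n)) := by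
      exact_mod_cast le_editDist_zero n
    have h1 := (hT (xZero n) (yZero n)).1
    have h2 := (hT (xZero n) (yZero n)).2
    by_contra hcon
    rw [not_lt] at hcon
    have h3 : α * (editDist (List.ofFn (xZero n)) (List.ofFn (yZero n)) : ℝ) ≤ 0 :=
      mul_nonpos_of_nonpos_of_nonneg hcon (Nat.cast_nonneg _)
    have h4 : (1 : ℝ) ≤ n := by exact_mod_cast hn
    linarith
  set m := ⌈(n : ℝ) / (2 * α)⌉₊ with hm
  have hchains : ∀ (L : ℕ) (a b : Fin L → Fin n), StrictMono a → StrictMono b →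
      (∀ t, (a t, b t) ∉ crossSet T) → L + m ≤ n := by
    intro L a b ha hb hQ
    have hL : L ≤ n := by simpa using Fintype.card_le_of_injective a ha.injective
    have h := chain_bound α hαpos.le T hT a b ha hb hQ
    have h' : (n : ℝ) / (2 * α) ≤ ((n - L : ℕ) : ℝ) := by
      rw [div_le_iff₀ (by positivity)]
      push_cast at h ⊢
      linarith
    have : m ≤ n - L := Nat.ceil_le.mpr h'
    omega
  have hcount : m * m ≤ (crossSet T).card := count_main (crossSet T) hchains
  have hcost := card_crossSet_le T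
  have hmn : (n : ℝ) ≤ 2 * α * m := by
    have := Nat.le_ceil ((n : ℝ) / (2 * α))
    rw [div_le_iff₀ (by positivity)] at this
    linarith
  have hmm : ((m : ℝ) * m) ≤ T.cost (xZero n) (yZero n) := by
    exact_mod_cast hcount.trans hcost
  have hn0 : (0 : ℝ) ≤ n := Nat.cast_nonneg n
  have hsq : (n : ℝ) ^ 2 ≤ (2 * α * m) ^ 2 := pow_le_pow_left₀ hn0 hmn 2
  have hα2 : (0 : ℝ) ≤ 4 * α ^ 2 := by positivity
  have := mul_le_mul_of_nonneg_left hmm hα2
  nlinarith

theorem main_bound_injective {n : ℕ} (α : ℝ) (T : CmpTree n)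
    (hT : ∀ x y : Fin n → Fin (2 * n),
      (editDist (List.ofFn x) (List.ofFn y) : ℝ) ≤ T.run x y ∧
        T.run x y ≤ α * editDist (List.ofFn x) (List.ofFn y))
    (x y : Fin n → Fin (2 * n)) (hxy : Function.Injective (Sum.elim x y)) :
    (n : ℝ) ^ 2 ≤ 4 * α ^ 2 * T.cost x y := by
  rw [cost_eq_of_injective T x y hxy]
  exact main_bound α T hT

end Vale.Agent.Lib.P315
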