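import Vale.Agent.Lib.P315.EditLemmas

namespace Vale.Agent.Lib.P315

namespace CmpTree

variable {n : ℕ}

/-- The list of pairs of positions compared on the input `(x, y)`. -/
def queries {A : Type} [DecidableEq A] (x y : Fin n → A) :
    CmpTree n → List ((Fin n ⊕ Fin n) × (Fin n ⊕ Fin n))
  | out _ => []
  | cmp p q t₁ t₂ =>
      (p, q) :: (if Sum.elim x y p = Sum.elim x y q then queries x y t₁ else queries x y t₂)

theorem cost_eq_length_queries {A : Type} [DecidableEq A] (x y : Fin n → A) (T : CmpTree n) :
    T.cost x y = (T.queries x y).length := by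
  induction T with
  | out d => rfl
  | cmp p q t₁ t₂ ih₁ ih₂ =>
    simp only [cost, queries, List.length_cons]
    split <;> simp [*]

theorem run_congr {A A' : Type} [DecidableEq A] [DecidableEq A'] (x y : Fin n → A)
    (x' y' : Fin n → A') (T : CmpTree n)
    (h : ∀ pq ∈ T.queries x y,
      (Sum.elim x y pq.1 = Sum.elim x y pq.2 ↔ Sum.elim x' y' pq.1 = Sum.elim x' y' pq.2)) :
    T.run x' y' = T.run x y := by
  induction T with
  | out d => rfl
  | cmp p q t₁ t₂ ih₁ ih₂ =>
    have hpq := h (p, q) (by simp [queries])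
    simp only at hpq
    by_cases hc : Sum.elim x y p = Sum.elim x y q
    · have hc' := hpq.mp hc
      simp only [run, hc, hc', if_true]
      apply ih₁
      intro pq hmem
      apply h
      simp [queries, hc, hmem]
    · have hc' : ¬ Sum.elim x' y' p = Sum.elim x' y' q := fun h' => hc (hpq.mpr h')
      simp only [run, hc, hc', if_false]
      apply ih₂
      intro pq hmem
      apply h
      simp [queries, hc, hmem]

theorem cost_congr {A A' : Type} [DecidableEq A] [DecidableEq A'] (x y : Fin n → A)
    (x' y' : Fin n → A') (T : CmpTree n)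
    (h : ∀ pq ∈ T.queries x y,
      (Sum.elim x y pq.1 = Sum.elim x y pq.2 ↔ Sum.elim x' y' pq.1 = Sum.elim x' y' pq.2)) :
    T.cost x' y' = T.cost x y := by
  induction T with
  | out d => rfl
  | cmp p q t₁ t₂ ih₁ ih₂ =>
    have hpq := h (p, q) (by simp [queries])
    simp only at hpq
    by_cases hc : Sum.elim x y p = Sum.elim x y q
    · have hc' := hpq.mp hc
      simp only [cost, hc, hc', if_true]
      congr 1
      apply ih₁
      intro pq hmem
      apply h
      simp [queries, hc, hmem]
    · have hc' : ¬ Sum.elim x' y' p = Sum.elim x' y' q := fun h' => hc (hpq.mpr h')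
      simp only [cost, hc, hc', if_false]
      congr 1
      apply ih₂
      intro pq hmem
      apply h
      simp [queries, hc, hmem]

end CmpTree

/-- The first string of the hard input: the symbols `0, ..., n - 1`. -/
def xZero (n : ℕ) : Fin n → Fin (2 * n) := fun i => ⟨i, by omega⟩

/-- The second string of the hard input: the symbols `n, ..., 2 n - 1`. -/
def yZero (n : ℕ) : Fin n → Fin (2 * n) := fun j => ⟨n + j, by omega⟩

/-- The second string with a planted chain of matches `(a t, b t)`. -/
noncomputable def yOne {n L : ℕ} (a b : Fin L → Fin n) : Fin n → Fin (2 * n) := fun j =>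
  if h : ∃ t, b t = j then xZero n (a h.choose) else yZero n j

theorem xZero_ne_yZero {n : ℕ} (i j : Fin n) : xZero n i ≠ yZero n j := by
  intro h
  have := congrArg Fin.val h
  simp only [xZero, yZero] at this
  omega

theorem xZero_injective (n : ℕ) : Function.Injective (xZero n) := by
  intro i j h
  have := congrArg Fin.val h
  simp only [xZero] at this
  exact Fin.ext this

theorem yZero_injective (n : ℕ) : Function.Injective (yZero n) := by
  intro i j h
  have := congrArg Fin.val h
  simp only [yZero] at this
  exact Fin.ext (by omega)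

theorem yOne_apply {n L : ℕ} (a b : Fin L → Fin n) (hb : Function.Injective b) (t : Fin L) :
    yOne a b (b t) = xZero n (a t) := by
  have h : ∃ s, b s = b t := ⟨t, rfl⟩
  have hs : h.choose = t := hb h.choose_spec
  simp only [yOne, dif_pos h, hs]

theorem yOne_of_not {n L : ℕ} (a b : Fin L → Fin n) (j : Fin n) (h : ¬ ∃ t, b t = j) :
    yOne a b j = yZero n j := by
  simp only [yOne, dif_neg h]

theorem yOne_injective {n L : ℕ} (a b : Fin L → Fin n) (ha : Function.Injective a)
    (hb : Function.Injective b) : Function.Injective (yOne a b) := by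
  intro j j' h
  by_cases h1 : ∃ t, b t = j
  · obtain ⟨t, rfl⟩ := h1
    by_cases h2 : ∃ t', b t' = j'
    · obtain ⟨t', rfl⟩ := h2
      rw [yOne_apply a b hb, yOne_apply a b hb] at h
      rw [ha (xZero_injective n h)]
    · rw [yOne_apply a b hb, yOne_of_not a b j' h2] at h
      exact absurd h (xZero_ne_yZero _ _)
  · by_cases h2 : ∃ t', b t' = j'
    · obtain ⟨t', rfl⟩ := h2
      rw [yOne_apply a b hb, yOne_of_not a b j h1] at h
      exact absurd h.symm (xZero_ne_yZero _ _)
    · rw [yOne_of_not a b j h1, yOne_of_not a b j' h2] at h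
      exact yZero_injective n h

theorem xZero_eq_yOne_iff {n L : ℕ} (a b : Fin L → Fin n) (hb : Function.Injective b)
    (i j : Fin n) : xZero n i = yOne a b j ↔ ∃ t, a t = i ∧ b t = j := by
  constructor
  · intro h
    by_cases h1 : ∃ t, b t = j
    · obtain ⟨t, rfl⟩ := h1
      rw [yOne_apply a b hb] at h
      exact ⟨t, (xZero_injective n h).symm, rfl⟩
    · rw [yOne_of_not a b j h1] at h
      exact absurd h (xZero_ne_yZero _ _)
  · rintro ⟨t, rfl, rfl⟩
    rw [yOne_apply a b hb]

/-- The cross pair `(i, j)` tested by a comparison of position `i` of the first string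
with position `j` of the second string. -/
def crossPair {n : ℕ} : (Fin n ⊕ Fin n) × (Fin n ⊕ Fin n) → Option (Fin n × Fin n)
  | (Sum.inl i, Sum.inr j) => some (i, j)
  | (Sum.inr j, Sum.inl i) => some (i, j)
  | _ => none

/-- The set of cross pairs compared by `T` on the hard input. -/
def crossSet {n : ℕ} (T : CmpTree n) : Finset (Fin n × Fin n) :=
  ((T.queries (xZero n) (yZero n)).filterMap crossPair).toFinset

theorem card_crossSet_le {n : ℕ} (T : CmpTree n) :
    (crossSet T).card ≤ T.cost (xZero n) (yZero n) := by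
  rw [CmpTree.cost_eq_length_queries]
  exact (List.toFinset_card_le _).trans (List.length_filterMap_le _ _)

theorem mem_crossSet_left {n : ℕ} (T : CmpTree n) (i j : Fin n)
    (h : (Sum.inl i, Sum.inr j) ∈ T.queries (xZero n) (yZero n)) : (i, j) ∈ crossSet T := by
  simp only [crossSet, List.mem_toFinset, List.mem_filterMap]
  exact ⟨_, h, rfl⟩

theorem mem_crossSet_right {n : ℕ} (T : CmpTree n) (i j : Fin n)
    (h : (Sum.inr j, Sum.inl i) ∈ T.queries (xZero n) (yZero n)) : (i, j) ∈ crossSet T := by
  simp only [crossSet, List.mem_toFinset, List.mem_filterMap]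
  exact ⟨_, h, rfl⟩

theorem run_yOne {n L : ℕ} (T : CmpTree n) (a b : Fin L → Fin n) (ha : Function.Injective a)
    (hb : Function.Injective b) (hQ : ∀ t, (a t, b t) ∉ crossSet T) :
    T.run (xZero n) (yOne a b) = T.run (xZero n) (yZero n) := by
  apply CmpTree.run_congr
  rintro ⟨p, q⟩ hmem
  rcases p with i | j <;> rcases q with i' | j'
  · simp
  · simp only [Sum.elim_inl, Sum.elim_inr]
    constructor
    · intro h; exact absurd h (xZero_ne_yZero _ _)
    · intro h
      obtain ⟨t, rfl, rfl⟩ := (xZero_eq_yOne_iff a b hb i j').mp h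
      exact absurd (mem_crossSet_left T _ _ hmem) (hQ t)
  · simp only [Sum.elim_inl, Sum.elim_inr]
    constructor
    · intro h; exact absurd h.symm (xZero_ne_yZero _ _)
    · intro h
      obtain ⟨t, rfl, rfl⟩ := (xZero_eq_yOne_iff a b hb i' j).mp h.symm
      exact absurd (mem_crossSet_right T _ _ hmem) (hQ t)
  · simp only [Sum.elim_inr]
    constructor
    · intro h; rw [yZero_injective n h]
    · intro h; rw [yOne_injective a b ha hb h]

theorem le_editDist_zero (n : ℕ) :
    n ≤ editDist (List.ofFn (xZero n)) (List.ofFn (yZero n)) := by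
  have h := le_editDist_of_countP (fun s : Fin (2 * n) => decide ((s : ℕ) < n))
    (List.ofFn (xZero n)) (List.ofFn (yZero n))
  have h1 : (List.ofFn (xZero n)).countP (fun s : Fin (2 * n) => decide ((s : ℕ) < n)) = n := by
    have : (List.ofFn (xZero n)).countP (fun s : Fin (2 * n) => decide ((s : ℕ) < n))
        = (List.ofFn (xZero n)).length := by
      rw [List.countP_eq_length]
      intro s hs
      rw [List.mem_ofFn] at hs
      obtain ⟨i, rfl⟩ := hs
      simp [xZero]
    simpa using this
  have h2 : (List.ofFn (yZero n)).countP (fun s : Fin (2 * n) => decide ((s : ℕ) < n)) = 0 := by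
    rw [List.countP_eq_zero]
    intro s hs
    rw [List.mem_ofFn] at hs
    obtain ⟨i, rfl⟩ := hs
    simp [yZero]
  omega

theorem chain_bound {n : ℕ} (α : ℝ) (hα : 0 ≤ α) (T : CmpTree n)
    (hT : ∀ x y : Fin n → Fin (2 * n),
      (editDist (List.ofFn x) (List.ofFn y) : ℝ) ≤ T.run x y ∧
        T.run x y ≤ α * editDist (List.ofFn x) (List.ofFn y))
    {L : ℕ} (a b : Fin L → Fin n) (ha : StrictMono a) (hb : StrictMono b)
    (hQ : ∀ t, (a t, b t) ∉ crossSet T) :
    (n : ℝ) ≤ α * (((n - L) + (n - L) : ℕ) : ℝ) := by
  have h0 : (n : ℝ) ≤ editDist (List.ofFn (xZero n)) (List.ofFn (yZero n)) := by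
    exact_mod_cast le_editDist_zero n
  have h1 := (hT (xZero n) (yZero n)).1
  have h2 := (hT (xZero n) (yOne a b)).2
  rw [run_yOne T a b ha.injective hb.injective hQ] at h2
  have h3 : editDist (List.ofFn (xZero n)) (List.ofFn (yOne a b)) ≤ (n - L) + (n - L) :=
    editDist_ofFn_le_of_chain a b ha hb (xZero n) (yOne a b)
      (fun t => (yOne_apply a b hb.injective t).symm)
  have h4 : (editDist (List.ofFn (xZero n)) (List.ofFn (yOne a b)) : ℝ)
      ≤ (((n - L) + (n - L) : ℕ) : ℝ) := by exact_mod_cast h3
  have h5 := mul_le_mul_of_nonneg_left h4 hα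
  linarith

theorem cost_eq_of_injective {n : ℕ} (T : CmpTree n) (x y : Fin n → Fin (2 * n))
    (hxy : Function.Injective (Sum.elim x y)) :
    T.cost x y = T.cost (xZero n) (yZero n) := by
  have h0 : Function.Injective (Sum.elim (xZero n) (yZero n)) :=
    Function.Injective.sumElim (xZero_injective n) (yZero_injective n) xZero_ne_yZero
  apply CmpTree.cost_congr
  rintro ⟨p, q⟩ _
  simp only
  rw [h0.eq_iff, hxy.eq_iff]

end Vale.Agent.Lib.P315
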